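import Vale.Agent.P011.D4X.H862.Short
import Vale.Agent.P011N.D1.Base
import Vale.Agent.P011N.D1.D4X.Defs
import Vale.Agent.P011N.D1.D4X.H691.Na

/-!
Version for big subgroups of `P011.D4X.H862.Short`.
-/

open NumberField IsDedekindDomain Topology

namespace Vale.Agent.P011.D4X

open Vale.Agent.P011.Arith Vale.Agent.P011.MPQ Vale.Agent.P011.D4 Vale.Agent.P011.D4.Oct
  Vale.Agent.P011.E6

section

variable {k L E : Type} [Field k] [NumberField k] [Field L] [NumberField L] [Field E]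
  [Algebra k L] [Algebra k E] [Algebra L E]
  [IsScalarTower k L E] [NeZero (2 : E)] {ρ σ : E ≃ₐ[k] E} {ρL : L ≃ₐ[k] L} {α : E}
  {a b c : kˣ} {q : Lˣ} (H : Hy ρ σ ρL α a b c q)

include H

omit [NeZero (2 : E)] in
/-- The short subgroup lies in the finite residual. -/
theorem short_mem_ofB
    (hEx : ∀ x : SL1 (up L a) (q * up L b), ∃ g ∈ GT ρ σ α a b c q,
      ∀ y : OctL E a b c, g y = shortFun ρ (psiL α q ((x : (Qt (up L a) (q * up L b))ˣ) :
        Qt (up L a) (q * up L b))) y)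
    (hMul : ∀ x y : Qt (up L a) (q * up L b),
      (psiL α q (x * y) : Qt (up E a) (up E b)) = psiL α q x * psiL α q y)
    (hTor : ∀ {x : SL1 (up L a) (q * up L b)} {D : k} {w : Qt (up L a) (q * up L b)},
      GoodD a b q D → ¬ IsSquare D → ¬ IsSquare ((a : k) * D) → w.re = 0 →
      w * w = algebraMap k L D • 1 → ∀ {s t : L},
      ((x : (Qt (up L a) (q * up L b))ˣ) : Qt (up L a) (q * up L b)) = s • 1 + t • w →
      ∀ {g : OctL E a b c ≃ₗ[E] OctL E a b c},
      (∀ y : OctL E a b c, g y = shortFun ρ (psiL α q ((x : (Qt (up L a) (q * up L b))ˣ) :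
        Qt (up L a) (q * up L b))) y) → g ∈ RsB ρ σ α a b c q)
    {x : SL1 (up L a) (q * up L b)} {g : OctL E a b c ≃ₗ[E] OctL E a b c}
    (hg : ∀ y : OctL E a b c, g y = shortFun ρ (psiL α q ((x : (Qt (up L a) (q * up L b))ˣ) :
      Qt (up L a) (q * up L b))) y) : g ∈ RsB ρ σ α a b c q := by
  choose S hS1 hS2 using hEx
  have hmul : ∀ x y, S (x * y) = S x * S y := by
    intro x y
    apply LinearEquiv.ext
    intro z
    rw [LinearEquiv.mul_apply, hS2, hS2, hS2, ← Em.shortFun_mul, ← hMul]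
    rfl
  let s : SL1 (up L a) (q * up L b) →* GT ρ σ α a b c q :=
    MonoidHom.mk' (fun x => ⟨S x, hS1 x⟩) fun x y => Subtype.ext (hmul x y)
  have hs : ∀ x, ((s x : GT ρ σ α a b c q) : OctL E a b c ≃ₗ[E] OctL E a b c) = S x :=
    fun _ => rfl
  have hgS : g = S x := by
    apply LinearEquiv.ext
    intro y
    rw [hg, hS2]
  rw [hgS, mem_RsB]
  refine ⟨hS1 x, ?_⟩
  rw [mem_fresB]
  intro N hN
  suffices h : N.comap s = ⊤ by
    have : x ∈ N.comap s := by rw [h]; exact Subgroup.mem_top x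
    exact this
  obtain ⟨c', D, hD, h1, h2, h3, h4, h5⟩ := exists_D (k := k) (L := L) H.h3 H.ρ1 (a := a) (b := b)
    (q := q)
  obtain ⟨g1, g2, g3, g4⟩ := good_of H.h3 H.hdiv.aniso h2 h3 fun τ hτ => (h4 τ).2 hτ
  have hns : ¬ IsSquare (D : k) := by
    obtain ⟨τ, ha, hb, -⟩ := exists_dfn H.hdiv
    rintro ⟨r, hr⟩
    have h6 := (h4 τ).2 ha
    rw [hr, map_mul] at h6
    exact absurd h6 (not_lt.2 (mul_self_nonneg _))
  refine sl1_top (D := up L D) (c := algebraMap k L c') H.aniso1 ?_ h1 g4 _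
    (hN.comap s).normal ((hN.comap s).index H.aniso1) ?_
  · change algebraMap k L (D : k) = _
    rw [hD, map_add, map_mul, map_one, map_ofNat]
  · intro w hw0 hww y p r hy
    have h8 := hTor (x := y) ⟨g1, g2, g3, g4, fun τ hτ => (h4 τ).1 hτ⟩ hns h5 hw0 hww hy
      (g := S y) (hS2 y)
    obtain ⟨h6, h7⟩ := mem_RsB.1 h8
    exact mem_fresB.1 h7 _ hN

end

end Vale.Agent.P011.D4X
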